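import Vale.Agent.P181.GN.H820.FD

set_option autoImplicit false

/-!
# P181, GN: the shift of the letters
-/

open MvPolynomial

namespace Vale.Agent.P181.GN.H820

open Vale.Agent.P181.GN

variable {k : ℕ}

/-- The shift of a letter. -/
def sh (p : Lt k) : Lt k := (p.1 + 1, p.2)

lemma sh_inj : Function.Injective (sh (k := k)) := by
  rintro ⟨a, α⟩ ⟨b, β⟩ h
  have h1 : a + 1 = b + 1 := congrArg Prod.fst h
  have h2 : α = β := congrArg Prod.snd h
  rw [h2, Nat.succ_injective h1]

/-- The shift commutes with the raising operators. -/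
lemma rename_EU (r i : Fin k) (f : Po k) :
    EU r i (rename sh f) = rename sh (EU r i f) := by
  induction f using MvPolynomial.induction_on with
  | C c =>
    rw [rename_C, derivation_C, map_zero]
  | add f g hf hg => rw [map_add, map_add, map_add, map_add, hf, hg]
  | mul_X f p hf =>
    rw [map_mul, Derivation.leibniz, Derivation.leibniz, hf, rename_X]
    have h1 : EU r i (X (sh p) : Po k) = rename sh (EU r i (X p : Po k)) := by
      unfold EU
      rw [mkDerivation_X, mkDerivation_X, map_smul, rename_X]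
      rfl
    rw [h1, map_add, smul_eq_mul, smul_eq_mul, smul_eq_mul, smul_eq_mul, map_mul, map_mul,
      rename_X]

lemma xs_shift (u : Lt k →₀ ℕ) : xs (u.mapDomain sh) = xs u + ln u := by
  unfold xs ln
  rw [Finsupp.sum_mapDomain_index (h := fun (p : Lt k) (n : ℕ) => n * p.1)
    (fun p => Nat.zero_mul _) (fun p m n => Nat.add_mul _ _ _), ← Finsupp.sum_add]
  exact Finsupp.sum_congr fun p _ => Nat.mul_succ _ _

lemma us_shift (u : Lt k →₀ ℕ) (i : Fin k) : us (u.mapDomain sh) i = us u i := by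
  unfold us
  rw [Finsupp.sum_mapDomain_index (h := fun (p : Lt k) (n : ℕ) => n * p.2 i)
    (fun p => Nat.zero_mul _) (fun p m n => Nat.add_mul _ _ _)]
  rfl

lemma ln_shift (u : Lt k →₀ ℕ) : ln (u.mapDomain sh) = ln u := by
  unfold ln
  exact Finsupp.sum_mapDomain_index (fun _ => rfl) (fun _ _ _ => rfl)

lemma mem_shift {u : Lt k →₀ ℕ} {p : Lt k} (h : p ∈ (u.mapDomain sh).support) :
    ∃ q ∈ u.support, sh q = p := by
  classical
  have h1 := Finsupp.mapDomain_support h
  rw [Finset.mem_image] at h1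
  exact h1

/-- The shifted monomials. -/
lemma gBB_shift {tau : Fin k → ℕ} {y m0 : ℕ} {u : Lt k →₀ ℕ} (h : gTT tau y m0 u) :
    gBB tau y m0 (u.mapDomain sh) := by
  obtain ⟨h1, h2, h3⟩ := h
  refine ⟨fun p hp => ?_, ?_, fun i => by rw [us_shift, h3]⟩
  · obtain ⟨q, hq, rfl⟩ := mem_shift hp
    have h4 := h1 q hq
    have h5 : sz (sh q) = sz q + 1 := by
      unfold sz sh
      simp only
      omega
    rw [h5]
    exact ⟨by omega, fun h6 => by omega⟩
  · rw [xs_shift, ln_shift]
    omega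

/-- The shift as a map. -/
noncomputable def shM (tau : Fin k → ℕ) (y m0 : ℕ) :
    UH (gTT tau y m0) →ₗ[ℂ] UH (gBB tau y m0) where
  toFun f := ⟨rename sh (f : Po k), fun v hv => by
    obtain ⟨u, rfl, hu⟩ := coeff_rename_ne_zero _ _ _ hv
    exact gBB_shift (f.2.1 u hu), fun r i h => by
    rw [rename_EU, f.2.2 r i h, map_zero]⟩
  map_add' _ _ := Subtype.ext (map_add _ _ _)
  map_smul' _ _ := Subtype.ext (map_smul _ _ _)

/-- The inclusion. -/
noncomputable def inM (tau : Fin k → ℕ) (y m0 : ℕ) :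
    UH (gSL tau y m0) →ₗ[ℂ] UH (gBB tau y m0) where
  toFun f := ⟨(f : Po k), fun v hv => (f.2.1 v hv).1, f.2.2⟩
  map_add' _ _ := rfl
  map_smul' _ _ := rfl

/-- **[Q4s]**. -/
theorem q4s : Q4s := by
  intro k y m0 tau
  have h1 : FiniteDimensional ℂ (UH (gTT tau y m0)) := (fd k y m0 tau 0).2.2
  have h2 : FiniteDimensional ℂ (UH (gSL tau y m0)) :=
    finiteDimensional_UH (finite_of_tot _ fun v h =>
      tot_gPP (tau := tau) (y := y) (m0 := m0) ⟨fun p hp => (h.1.1 p hp).1, h.1.2.1, h.1.2.2⟩)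
  have h3 : FiniteDimensional ℂ (UH (gBB tau y m0)) :=
    finiteDimensional_UH (finite_of_tot _ fun v h =>
      tot_gPP (tau := tau) (y := y) (m0 := m0) ⟨fun p hp => (h.1 p hp).1, h.2.1, h.2.2⟩)
  rw [← Module.finrank_prod]
  refine LinearMap.finrank_le_finrank_of_injective
    (f := (shM tau y m0).coprod (inM tau y m0)) ?_
  rw [← LinearMap.ker_eq_bot, LinearMap.ker_eq_bot']
  rintro ⟨f, g⟩ hfg
  have h4 : rename sh (f : Po k) + (g : Po k) = 0 := congrArg Subtype.val hfg
  -- the monomials of the two summands are different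
  have h5 : (g : Po k) = 0 := by
    ext v
    rw [coeff_zero]
    by_contra hne
    obtain ⟨p, hp, hp0⟩ := (g.2.1 v hne).2
    have h6 : coeff v (rename sh (f : Po k)) ≠ 0 := by
      intro h7
      have h8 := congrArg (coeff v) h4
      rw [coeff_add, h7, zero_add, coeff_zero] at h8
      exact hne h8
    obtain ⟨u, rfl, _⟩ := coeff_rename_ne_zero _ _ _ h6
    obtain ⟨q, _, rfl⟩ := mem_shift hp
    exact absurd hp0 (Nat.succ_ne_zero _)
  rw [h5, add_zero] at h4
  have h6 : (f : Po k) = 0 := rename_injective _ sh_inj (h4.trans (map_zero _).symm)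
  exact Prod.ext (Subtype.ext h6) (Subtype.ext h5)

end Vale.Agent.P181.GN.H820
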