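import Vale.Agent.P181.GN.Defs

set_option autoImplicit false

/-!
# P181, GN: finite dimension of the spaces of letters
-/

open MvPolynomial

namespace Vale.Agent.P181.GN.H820

open Vale.Agent.P181.GN

variable {k : ℕ}

/-- The total size of a monomial. -/
def tot (v : Lt k →₀ ℕ) : ℕ := v.sum fun p n => n * sz p

lemma tot_eq (v : Lt k →₀ ℕ) : tot v = xs v + ∑ i, us v i := by
  unfold tot xs us sz
  simp only [Finsupp.sum]
  rw [Finset.sum_comm, ← Finset.sum_add_distrib]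
  refine Finset.sum_congr rfl fun p _ => ?_
  rw [mul_add, Finset.mul_sum]

/-- The monomials of bounded size. -/
lemma finite_tot (W : ℕ) :
    {v : Lt k →₀ ℕ | (∀ p ∈ v.support, 1 ≤ sz p) ∧ tot v ≤ W}.Finite := by
  classical
  let F : Finset (Lt k) :=
    Finset.range (W + 1) ×ˢ Fintype.piFinset fun _ : Fin k => Finset.range (W + 1)
  refine (Finset.finite_toSet (F.finsupp fun _ => Finset.range (W + 1))).subset ?_
  rintro v ⟨hv1, hv2⟩
  have hle : ∀ p ∈ v.support, v p * sz p ≤ W := by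
    intro p hp
    refine le_trans ?_ hv2
    exact Finset.single_le_sum (f := fun p => v p * sz p) (fun _ _ => Nat.zero_le _) hp
  rw [Finset.mem_coe, Finset.mem_finsupp_iff]
  constructor
  · intro p hp
    have h1 := hle p hp
    have h2 : 1 ≤ v p := Nat.one_le_iff_ne_zero.2 (Finsupp.mem_support_iff.1 hp)
    have h3 : sz p ≤ W := (Nat.le_mul_of_pos_left _ h2).trans h1
    have h4 : p.1 ≤ sz p := Nat.le_add_right _ _
    have h5 : ∀ i, p.2 i ≤ sz p := fun i =>
      (Finset.single_le_sum (f := fun i => p.2 i) (fun _ _ => Nat.zero_le _)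
        (Finset.mem_univ i)).trans (Nat.le_add_left _ _)
    rw [Finset.mem_product, Finset.mem_range, Fintype.mem_piFinset]
    refine ⟨by omega, fun i => ?_⟩
    rw [Finset.mem_range]
    have := h5 i
    omega
  · intro p _
    rw [Finset.mem_range]
    by_cases hp : p ∈ v.support
    · have h1 := hle p hp
      have h2 := hv1 p hp
      have h3 : v p ≤ v p * sz p := Nat.le_mul_of_pos_right _ h2
      omega
    · rw [Finsupp.notMem_support_iff.1 hp]
      omega

/-- Finitely many monomials. -/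
lemma finiteDimensional_UH {P : (Lt k →₀ ℕ) → Prop} (h : {v : Lt k →₀ ℕ | P v}.Finite) :
    FiniteDimensional ℂ (UH P) := by
  have : Finite {v : Lt k →₀ ℕ // P v} := h
  let Φ : UH P →ₗ[ℂ] ({v : Lt k →₀ ℕ // P v} → ℂ) :=
    LinearMap.pi fun v => (lcoeff ℂ v.1).comp (UH P).subtype
  refine FiniteDimensional.of_injective Φ ?_
  rw [← LinearMap.ker_eq_bot, LinearMap.ker_eq_bot']
  intro f hf
  apply Subtype.ext
  ext v
  rw [ZeroMemClass.coe_zero, coeff_zero]
  by_contra hne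
  have h1 := f.2.1 v hne
  have h2 : Φ f ⟨v, h1⟩ = 0 := by rw [hf]; rfl
  exact hne h2

lemma finite_of_tot {P : (Lt k →₀ ℕ) → Prop} (W : ℕ)
    (h : ∀ v, P v → (∀ p ∈ v.support, 1 ≤ sz p) ∧ tot v ≤ W) : {v : Lt k →₀ ℕ | P v}.Finite :=
  (finite_tot W).subset fun v hv => h v hv

/-- The bound for `gPP`. -/
lemma tot_gPP {tau : Fin k → ℕ} {y m0 : ℕ} {v : Lt k →₀ ℕ} (h : gPP tau y m0 v) :
    (∀ p ∈ v.support, 1 ≤ sz p) ∧ tot v ≤ 2 * (m0 + ∑ i, tau i) := by
  obtain ⟨h1, h2, h3⟩ := h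
  refine ⟨fun p hp => (Nat.le_succ 1).trans (h1 p hp), ?_⟩
  have h4 : ∑ i, us v i = ∑ i, tau i := Finset.sum_congr rfl fun i _ => h3 i
  have h5 : 2 * ln v ≤ tot v := by
    unfold ln tot
    simp only [Finsupp.sum]
    rw [Finset.mul_sum]
    refine Finset.sum_le_sum fun p hp => ?_
    rw [mul_comm]
    exact Nat.mul_le_mul_left _ (h1 p hp)
  have h6 := tot_eq v
  rw [h4] at h6
  omega

/-- The bound for `gTT`. -/
lemma tot_gTT {tau : Fin k → ℕ} {y m0 : ℕ} {v : Lt k →₀ ℕ} (h : gTT tau y m0 v) :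
    (∀ p ∈ v.support, 1 ≤ sz p) ∧ tot v ≤ m0 + ∑ i, tau i := by
  obtain ⟨h1, h2, h3⟩ := h
  refine ⟨fun p hp => (Nat.le_succ 1).trans (h1 p hp), ?_⟩
  have h4 : ∑ i, us v i = ∑ i, tau i := Finset.sum_congr rfl fun i _ => h3 i
  have h6 := tot_eq v
  rw [h4] at h6
  omega

/-- The bound for `gEL`. -/
lemma tot_gEL {tau : Fin k → ℕ} {z : ℤ} {v : Lt k →₀ ℕ} (h : gEL tau z v) :
    (∀ p ∈ v.support, 1 ≤ sz p) ∧ tot v ≤ z.toNat + ∑ i, tau i := by
  obtain ⟨h1, h2, h3⟩ := h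
  refine ⟨h1, ?_⟩
  have h4 : ∑ i, us v i = ∑ i, tau i := Finset.sum_congr rfl fun i _ => h3 i
  have h6 := tot_eq v
  rw [h4] at h6
  omega

/-- **[FD]**. -/
theorem fd : FD := fun _ _ _ _ _ =>
  ⟨finiteDimensional_UH (finite_of_tot _ fun _ h => tot_gPP h),
    finiteDimensional_UH (finite_of_tot _ fun _ h => tot_gEL h),
    finiteDimensional_UH (finite_of_tot _ fun _ h => tot_gTT h)⟩

end Vale.Agent.P181.GN.H820
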